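import Vale.Agent.P141.H719.Iso
import Vale.Agent.P141.H747.GridF
import Vale.Agent.P141.H297.PairBC

/-!
# P141, line (A): pair sums of labelled node matrices as plane sums

`RP` of `NodeStep` for the matrices of `H747.GridF` (labels in the low digits) is `4 ^ L` times the
plane sum of the saturated families in the letters of `PlaneW` / `PlaneV`, at each of the hubs.
-/

namespace Vale.Agent.P141.H719

open Finset Matrix Vale.Agent.P075 Vale.Agent.P141.PL Vale.Agent.P141.PL.H588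
open Vale.Agent.P141.PL.H804 (bl bx3 M2 sum_bx3 sum_bx3_21 sum_bx3_32 sum_ite_plane)
open Vale.Agent.P141.H103 (QW PA un GW)
open Vale.Agent.P141.H609 (RP NM)
open Vale.Agent.P141.H958 (lbs encR encL dup lb sum_iv_add' lb_mk ix_mk)
open Vale.Agent.P141.H585.PairCh (phs)
open Vale.Agent.P141.H338 (cu)
open Vale.Agent.P141.H747 (sL gA gB gC sum_sL)
open Vale.Agent.P141.H297.Ch (Py sl)

noncomputable section

open scoped Classical

variable {κ : Type*} [Fintype κ] [DecidableEq κ] {L : ℕ} {e : κ → ℤ}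

theorem ix_fine (k L : ℕ) (m : ℤ) (i : Ix (k + L)) :
    ix L (2 ^ (k + L) * m + val (k + L) i) = 2 ^ k * m + val k (eL k L i).1 := by
  rw [val_eL]
  push_cast
  rw [show (2 : ℤ) ^ (k + L) * m + (2 ^ L * (val k (eL k L i).1 : ℤ) + (val L (eL k L i).2 : ℤ)) =
    2 ^ L * (2 ^ k * m + val k (eL k L i).1) + (val L (eL k L i).2 : ℤ) by rw [pow_add]; ring]
  refine ix_mk ?_ _
  unfold H958.lbs
  rw [mem_Ico]
  exact ⟨by positivity, by exact_mod_cast val_lt L _⟩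

theorem lb_fine (k L : ℕ) (m : ℤ) (i : Ix (k + L)) :
    lb L (2 ^ (k + L) * m + val (k + L) i) = val L (eL k L i).2 := by
  rw [val_eL]
  push_cast
  rw [show (2 : ℤ) ^ (k + L) * m + (2 ^ L * (val k (eL k L i).1 : ℤ) + (val L (eL k L i).2 : ℤ)) =
    2 ^ L * (2 ^ k * m + val k (eL k L i).1) + (val L (eL k L i).2 : ℤ) by rw [pow_add]; ring]
  refine lb_mk ?_ _
  unfold H958.lbs
  rw [mem_Ico]
  exact ⟨by positivity, by exact_mod_cast val_lt L _⟩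

/-- the lift which forgets the low digits -/
theorem VD_apply (k L : ℕ) (X : Matrix (Ix k) (Ix k) ℝ) (i i' : Ix (k + L)) :
    (VD k L * X * (VD k L)ᵀ) i i' = ((2 : ℝ) ^ L)⁻¹ * X (eL k L i).1 (eL k L i').1 := by
  have h2 : √((2 : ℝ) ^ L)⁻¹ * √((2 : ℝ) ^ L)⁻¹ = ((2 : ℝ) ^ L)⁻¹ :=
    Real.mul_self_sqrt (by positivity)
  rw [Matrix.mul_apply]
  simp only [Matrix.mul_apply, Matrix.transpose_apply, VD, ite_mul, zero_mul, mul_ite, mul_zero]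
  rw [sum_ite_eq univ]
  simp only [mem_univ, if_true]
  rw [sum_ite_eq univ]
  simp only [mem_univ, if_true]
  calc √((2 : ℝ) ^ L)⁻¹ * X (eL k L i).1 (eL k L i').1 * √((2 : ℝ) ^ L)⁻¹
      = (√((2 : ℝ) ^ L)⁻¹ * √((2 : ℝ) ^ L)⁻¹) * X (eL k L i).1 (eL k L i').1 := by ring
    _ = _ := by rw [h2]

omit [DecidableEq κ] in
/-- labels to the low digits -/
theorem VL_mulVec (e : κ → ℤ) (k L : ℕ) (f : Ix k × κ → ℝ) (i : Ix (k + L)) :
    (VL e k L *ᵥ f) i = cu e (fun l => f ((eL k L i).1, l)) (val L (eL k L i).2) := by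
  unfold Matrix.mulVec dotProduct H338.cu VL
  rw [Fintype.sum_prod_type, sum_eq_single (eL k L i).1]
  · refine sum_congr rfl fun l _ => ?_
    simp
  · intro j _ hj
    refine sum_eq_zero fun l _ => ?_
    have h : ¬ ((eL k L i).1 = j ∧ e l = (val L (eL k L i).2 : ℤ)) := fun h => hj h.1.symm
    simp only [h, if_false, zero_mul]
  · intro h
    exact absurd (mem_univ _) h

theorem Py_conj {h g : Type*} [Fintype h] (V : Matrix g h ℝ) (W : ℤ → h → ℝ) (a : ℕ) (n : ℤ) :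
    V * Py W a n * Vᵀ = Py (fun y => V *ᵥ W y) a n := by
  ext i i'
  rw [Matrix.mul_apply]
  simp only [Matrix.mul_apply, Matrix.transpose_apply, H297.Ch.Py, H43.av, Matrix.mulVec,
    dotProduct]
  simp only [mul_sum, sum_mul]
  rw [sum_comm]
  have e1 : ∀ j, ∑ x, ∑ y ∈ iv a n, V i j * (((2 : ℝ) ^ a)⁻¹ * (W y j * W y x)) * V i' x =
      ∑ y ∈ iv a n, ∑ x, V i j * (((2 : ℝ) ^ a)⁻¹ * (W y j * W y x)) * V i' x :=
    fun j => sum_comm
  rw [sum_congr rfl fun j _ => e1 j, sum_comm]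
  refine sum_congr rfl fun y _ => ?_
  rw [sum_comm]
  refine sum_congr rfl fun x _ => sum_congr rfl fun j _ => ?_
  ring

/-! ### The Gram matrices of the labelled blocks -/

section gram

variable (k : ℕ) (A : ℤ → ℤ → ℝ) (b C : ℤ → ℤ → κ → ℝ) (μ : ℝ) (m : Pt)

theorem sum_fine (L k : ℕ) (n : ℤ) (f : ℤ → ℤ → ℝ) :
    ∑ j : Ix (k + L), f (lb L (2 ^ (k + L) * n + val (k + L) j))
      (ix L (2 ^ (k + L) * n + val (k + L) j)) = ∑ x ∈ iv k n, ∑ l ∈ lbs L, f l x := by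
  rw [← H958.sum_iv_add, sum_iv]

theorem sqrt_fac (L : ℕ) (a b : ℝ) :
    √((2 : ℝ) ^ L) * a * (√(2 ^ L) * b) = 2 ^ L * (a * b) := by
  have h := H958.sqrt_two_mul L
  calc √((2 : ℝ) ^ L) * a * (√(2 ^ L) * b) = (√((2 : ℝ) ^ L) * √(2 ^ L)) * (a * b) := by ring
    _ = _ := by rw [h]

theorem pow_id (k L : ℕ) : (4 : ℝ) ^ (k + L) * ((2 : ℝ) ^ k * 2 ^ k)⁻¹ = 4 ^ L := by
  have h4 : (4 : ℝ) ^ (k + L) = 2 ^ k * 2 ^ k * 4 ^ L := by
    rw [pow_add, ← mul_pow]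
    norm_num
  rw [h4]
  field_simp

theorem pow_id' (L : ℕ) : (4 : ℝ) ^ L * ((2 : ℝ) ^ L)⁻¹ = 2 ^ L := by
  have h4 : (4 : ℝ) ^ L = 2 ^ L * 2 ^ L := by rw [← mul_pow]; norm_num
  rw [h4]
  field_simp

/-- hub `z`, the labelled slot `C` -/
theorem gram_zC (he : Function.Injective e) (hm : ∀ i, e i ∈ lbs L) :
    gramC μ (bl (k + L) (encR L fun lab z x => cu e (C z x) lab) m.1 m.2.2)ᵀ =
      VD k L * ((μ * 4 ^ (k + L)) • QW k k (fun x z => C z x) (fun _ => 1) m.2.2 m.1) *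
        (VD k L)ᵀ := by
  ext i i'
  rw [VD_apply, gramC, Matrix.smul_apply, Matrix.mul_apply, Matrix.smul_apply]
  simp only [Matrix.transpose_apply, H804.bl, H588.smp, H958.encR_apply, smul_eq_mul, QW,
    Matrix.one_mulVec]
  simp only [ix_fine k L m.1]
  have h1 := sum_fine L k m.2.2 fun l x =>
    √(2 ^ L) * cu e (C (2 ^ k * m.1 + val k (eL k L i).1) x) l *
      (√(2 ^ L) * cu e (C (2 ^ k * m.1 + val k (eL k L i').1) x) l)
  rw [h1]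
  have h2 : ∀ x, ∑ l ∈ lbs L, √(2 ^ L) * cu e (C (2 ^ k * m.1 + val k (eL k L i).1) x) l *
      (√(2 ^ L) * cu e (C (2 ^ k * m.1 + val k (eL k L i').1) x) l) =
      2 ^ L * (C (2 ^ k * m.1 + val k (eL k L i).1) x ⬝ᵥ
        C (2 ^ k * m.1 + val k (eL k L i').1) x) := by
    intro x
    unfold dotProduct
    rw [← H338.sum_cu_cu he hm, mul_sum]
    exact sum_congr rfl fun l _ => sqrt_fac L _ _
  rw [sum_congr rfl fun x _ => h2 x, ← mul_sum]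
  have p1 := pow_id k L
  have p2 := pow_id' L
  calc μ * (2 ^ L * ∑ x ∈ iv k m.2.2, C (2 ^ k * m.1 + val k (eL k L i).1) x ⬝ᵥ
        C (2 ^ k * m.1 + val k (eL k L i').1) x)
      = (((4 : ℝ) ^ (k + L) * ((2 : ℝ) ^ k * 2 ^ k)⁻¹) * ((2 : ℝ) ^ L)⁻¹) * (μ *
        ∑ x ∈ iv k m.2.2, C (2 ^ k * m.1 + val k (eL k L i).1) x ⬝ᵥ
        C (2 ^ k * m.1 + val k (eL k L i').1) x) := by rw [p1, p2]; ring
    _ = _ := by ring

/-- hub `z`, the plain function -/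
theorem gram_zA : gramR μ (bl (k + L) (dup L A) m.1 m.2.1) =
      VD k L * ((μ * 4 ^ (k + L)) • PA (fun y z => A z y) k k m.2.1 m.1) * (VD k L)ᵀ := by
  ext i i'
  rw [VD_apply, gramR, Matrix.smul_apply, Matrix.mul_apply, Matrix.smul_apply]
  simp only [Matrix.transpose_apply, H804.bl, H588.smp, H958.dup_apply, smul_eq_mul, PA,
    H588.Xg_apply]
  simp only [ix_fine k L m.1]
  have h1 := sum_fine L k m.2.1 fun _ y => A (2 ^ k * m.1 + val k (eL k L i).1) y *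
    A (2 ^ k * m.1 + val k (eL k L i').1) y
  rw [h1]
  simp only [H958.sum_lbs_const]
  rw [← mul_sum, sum_iv]
  have p1 := pow_id k L
  have p2 := pow_id' L
  calc μ * (2 ^ L * ∑ j : Ix k, A (2 ^ k * m.1 + val k (eL k L i).1) (2 ^ k * m.2.1 + val k j) *
        A (2 ^ k * m.1 + val k (eL k L i').1) (2 ^ k * m.2.1 + val k j))
      = (((4 : ℝ) ^ (k + L) * ((2 : ℝ) ^ k * 2 ^ k)⁻¹) * ((2 : ℝ) ^ L)⁻¹) * (μ *
        ∑ j : Ix k, A (2 ^ k * m.1 + val k (eL k L i).1) (2 ^ k * m.2.1 + val k j) *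
        A (2 ^ k * m.1 + val k (eL k L i').1) (2 ^ k * m.2.1 + val k j)) := by rw [p1, p2]; ring
    _ = _ := by ring

/-- hub `y`, the plain function -/
theorem gram_yA : gramC μ (bl (k + L) (dup L A) m.1 m.2.1) =
      VD k L * ((μ * 4 ^ (k + L)) • PA A k k m.1 m.2.1) * (VD k L)ᵀ := by
  ext i i'
  rw [VD_apply, gramC, Matrix.smul_apply, Matrix.mul_apply, Matrix.smul_apply]
  simp only [Matrix.transpose_apply, H804.bl, H588.smp, H958.dup_apply, smul_eq_mul, PA,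
    H588.Xg_apply]
  simp only [ix_fine k L m.2.1]
  have h1 := sum_fine L k m.1 fun _ z => A z (2 ^ k * m.2.1 + val k (eL k L i).1) *
    A z (2 ^ k * m.2.1 + val k (eL k L i').1)
  rw [h1]
  simp only [H958.sum_lbs_const]
  rw [← mul_sum, sum_iv]
  have p1 := pow_id k L
  have p2 := pow_id' L
  calc μ * (2 ^ L * ∑ j : Ix k, A (2 ^ k * m.1 + val k j) (2 ^ k * m.2.1 + val k (eL k L i).1) *
        A (2 ^ k * m.1 + val k j) (2 ^ k * m.2.1 + val k (eL k L i').1))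
      = (((4 : ℝ) ^ (k + L) * ((2 : ℝ) ^ k * 2 ^ k)⁻¹) * ((2 : ℝ) ^ L)⁻¹) * (μ *
        ∑ j : Ix k, A (2 ^ k * m.1 + val k j) (2 ^ k * m.2.1 + val k (eL k L i).1) *
        A (2 ^ k * m.1 + val k j) (2 ^ k * m.2.1 + val k (eL k L i').1)) := by rw [p1, p2]; ring
    _ = _ := by ring

/-- hub `y`, the labelled function `b` -/
theorem gram_yB (he : Function.Injective e) (hm : ∀ i, e i ∈ lbs L) :
    gramR μ (bl (k + L) (encR L fun lab y x => cu e (b x y) lab) m.2.1 m.2.2) =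
      VD k L * ((μ * 4 ^ (k + L)) • QW k k b (fun _ => 1) m.2.2 m.2.1) * (VD k L)ᵀ := by
  ext i i'
  rw [VD_apply, gramR, Matrix.smul_apply, Matrix.mul_apply, Matrix.smul_apply]
  simp only [Matrix.transpose_apply, H804.bl, H588.smp, H958.encR_apply, smul_eq_mul, QW,
    Matrix.one_mulVec]
  simp only [ix_fine k L m.2.1]
  have h1 := sum_fine L k m.2.2 fun l x =>
    √(2 ^ L) * cu e (b x (2 ^ k * m.2.1 + val k (eL k L i).1)) l *
      (√(2 ^ L) * cu e (b x (2 ^ k * m.2.1 + val k (eL k L i').1)) l)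
  rw [h1]
  have h2 : ∀ x, ∑ l ∈ lbs L, √(2 ^ L) * cu e (b x (2 ^ k * m.2.1 + val k (eL k L i).1)) l *
      (√(2 ^ L) * cu e (b x (2 ^ k * m.2.1 + val k (eL k L i').1)) l) =
      2 ^ L * (b x (2 ^ k * m.2.1 + val k (eL k L i).1) ⬝ᵥ
        b x (2 ^ k * m.2.1 + val k (eL k L i').1)) := by
    intro x
    unfold dotProduct
    rw [← H338.sum_cu_cu he hm, mul_sum]
    exact sum_congr rfl fun l _ => sqrt_fac L _ _
  rw [sum_congr rfl fun x _ => h2 x, ← mul_sum]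
  have p1 := pow_id k L
  have p2 := pow_id' L
  calc μ * (2 ^ L * ∑ x ∈ iv k m.2.2, b x (2 ^ k * m.2.1 + val k (eL k L i).1) ⬝ᵥ
        b x (2 ^ k * m.2.1 + val k (eL k L i').1))
      = (((4 : ℝ) ^ (k + L) * ((2 : ℝ) ^ k * 2 ^ k)⁻¹) * ((2 : ℝ) ^ L)⁻¹) * (μ *
        ∑ x ∈ iv k m.2.2, b x (2 ^ k * m.2.1 + val k (eL k L i).1) ⬝ᵥ
        b x (2 ^ k * m.2.1 + val k (eL k L i').1)) := by rw [p1, p2]; ring
    _ = _ := by ring

omit [DecidableEq κ] in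
/-- hub `x`: the two labelled functions have the same shape `w (middle) (outer)` -/
theorem gram_x (w : ℤ → ℤ → κ → ℝ) (n n' : ℤ) (i i' : Ix (k + L)) :
    (VL e k L * ((μ * 4 ^ (k + L)) • Py (sl k n' w) k n) * (VL e k L)ᵀ) i i' =
      μ * (4 ^ L * ∑ y ∈ iv k n,
        cu e (w (2 ^ k * n' + val k (eL k L i).1) y) (val L (eL k L i).2) *
        cu e (w (2 ^ k * n' + val k (eL k L i').1) y) (val L (eL k L i').2)) := by
  rw [Matrix.mul_smul, Matrix.smul_mul, Matrix.smul_apply, Py_conj, smul_eq_mul]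
  have e1 : ∀ (y : ℤ) (j : Ix (k + L)), (VL e k L *ᵥ sl k n' w y) j = √((2 : ℝ) ^ k)⁻¹ *
      cu e (w (2 ^ k * n' + val k (eL k L j).1) y) (val L (eL k L j).2) := by
    intro y j
    rw [VL_mulVec]
    exact H338.cu_smul _ _ _
  simp only [H297.Ch.Py, H43.av, e1]
  have h2 : √((2 : ℝ) ^ k)⁻¹ * √((2 : ℝ) ^ k)⁻¹ = ((2 : ℝ) ^ k)⁻¹ :=
    Real.mul_self_sqrt (by positivity)
  have p1 := pow_id k L
  rw [mul_sum, mul_sum, mul_sum, mul_sum]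
  refine sum_congr rfl fun y _ => ?_
  set u := cu e (w (2 ^ k * n' + val k (eL k L i).1) y) (val L (eL k L i).2)
  set v := cu e (w (2 ^ k * n' + val k (eL k L i').1) y) (val L (eL k L i').2)
  calc μ * 4 ^ (k + L) * (((2 : ℝ) ^ k)⁻¹ * (√((2 : ℝ) ^ k)⁻¹ * u * (√((2 : ℝ) ^ k)⁻¹ * v)))
      = μ * 4 ^ (k + L) * (((2 : ℝ) ^ k)⁻¹ * ((√((2 : ℝ) ^ k)⁻¹ * √((2 : ℝ) ^ k)⁻¹) * (u * v))) := by
        ring
    _ = μ * ((4 ^ (k + L) * ((2 : ℝ) ^ k * 2 ^ k)⁻¹) * (u * v)) := by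
        rw [h2, mul_inv]
        ring
    _ = _ := by rw [p1]

/-- hub `x`, the labelled function `b` -/
theorem gram_xB : gramC μ (bl (k + L) (encR L fun lab y x => cu e (b x y) lab) m.2.1 m.2.2) =
      VL e k L * ((μ * 4 ^ (k + L)) • Py (sl k m.2.2 b) k m.2.1) * (VL e k L)ᵀ := by
  ext i i'
  rw [gram_x, gramC, Matrix.smul_apply, Matrix.mul_apply]
  simp only [Matrix.transpose_apply, H804.bl, H588.smp, H958.encR_apply, smul_eq_mul]
  simp only [ix_fine k L m.2.2, lb_fine k L m.2.2]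
  have h1 := sum_fine L k m.2.1 fun _ y =>
    √(2 ^ L) * cu e (b (2 ^ k * m.2.2 + val k (eL k L i).1) y) (val L (eL k L i).2) *
      (√(2 ^ L) * cu e (b (2 ^ k * m.2.2 + val k (eL k L i').1) y) (val L (eL k L i').2))
  rw [h1]
  simp only [H958.sum_lbs_const]
  congr 1
  rw [mul_sum]
  refine sum_congr rfl fun y _ => ?_
  have h4 : (4 : ℝ) ^ L = 2 ^ L * 2 ^ L := by rw [← mul_pow]; norm_num
  rw [h4, sqrt_fac]
  ring

/-- hub `x`, the labelled function `C` -/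
theorem gram_xC : gramR μ (bl (k + L) (encR L fun lab z x => cu e (C z x) lab) m.1 m.2.2)ᵀ =
      VL e k L * ((μ * 4 ^ (k + L)) • Py (sl k m.2.2 fun x z => C z x) k m.1) *
        (VL e k L)ᵀ := by
  ext i i'
  rw [gram_x, gramR, Matrix.smul_apply, Matrix.mul_apply]
  simp only [Matrix.transpose_apply, H804.bl, H588.smp, H958.encR_apply, smul_eq_mul]
  simp only [ix_fine k L m.2.2, lb_fine k L m.2.2]
  have h1 := sum_fine L k m.1 fun _ z =>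
    √(2 ^ L) * cu e (C z (2 ^ k * m.2.2 + val k (eL k L i).1)) (val L (eL k L i).2) *
      (√(2 ^ L) * cu e (C z (2 ^ k * m.2.2 + val k (eL k L i').1)) (val L (eL k L i').2))
  rw [h1]
  simp only [H958.sum_lbs_const]
  congr 1
  rw [mul_sum]
  refine sum_congr rfl fun y _ => ?_
  have h4 : (4 : ℝ) ^ L = 2 ^ L * 2 ^ L := by rw [← mul_pow]; norm_num
  rw [h4, sqrt_fac]
  ring

end gram

/-! ### The pair of one node -/

section node

theorem phs_pair {ν : Type*} [Fintype ν] [DecidableEq ν] {s s' : ℝ} (h X Y : Matrix ν ν ℝ) :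
    (phs s X * (h * phs s' Y * h)).trace =
      s * s' * (phi (s⁻¹ • X) * (h * phi (s'⁻¹ • Y) * h)).trace := by
  unfold H585.PairCh.phs
  simp only [Matrix.mul_smul, Matrix.smul_mul, trace_smul, smul_eq_mul]
  ring

theorem lev_id {x : ℝ} (k L : ℕ) : (x ^ 2)⁻¹ * (4 ^ (k + L))⁻¹ * 4 ^ (k + L) = (x ^ 2)⁻¹ := by
  rw [mul_assoc, inv_mul_cancel₀ (by positivity), mul_one]

/-- one node with an isometry -/
theorem node_iso {ν : Type*} [Fintype ν] [DecidableEq ν] {k L : ℕ} {x y : ℝ}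
    {V : Matrix (Ix (k + L)) ν ℝ} (hV : Vᵀ * V = 1) {h : Matrix ν ν ℝ}
    (hH : Vᵀ * hd (k + L) * V = h) {X Y : Matrix ν ν ℝ} (hX : X.PosSemidef) (hY : Y.PosSemidef)
    {F H : Matrix (Ix (k + L)) (Ix (k + L)) ℝ}
    (hF : gramC ((x ^ 2)⁻¹ * (4 ^ (k + L))⁻¹) F =
      V * (((x ^ 2)⁻¹ * (4 ^ (k + L))⁻¹ * 4 ^ (k + L)) • X) * Vᵀ)
    (hG : gramR ((y ^ 2)⁻¹ * (4 ^ (k + L))⁻¹) H =
      V * (((y ^ 2)⁻¹ * (4 ^ (k + L))⁻¹ * 4 ^ (k + L)) • Y) * Vᵀ) :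
    x ^ 2 * y ^ 2 * (4 ^ (k + L) * M2 (hd (k + L)) ((x ^ 2)⁻¹ * (4 ^ (k + L))⁻¹)
      ((y ^ 2)⁻¹ * (4 ^ (k + L))⁻¹) F H) =
      4 ^ L * (4 ^ k * (phs (x ^ 2) X * (h * phs (y ^ 2) Y * h)).trace) := by
  rw [phs_pair, H804.M2, hF, hG, lev_id, lev_id, trace_iso hV hH
    (hX.smul (by positivity)) (hY.smul (by positivity)), pow_add]
  ring

theorem QW_psd (k : ℕ) (b : ℤ → ℤ → κ → ℝ) (n m : ℤ) :
    (QW k k b (fun _ => (1 : Matrix κ κ ℝ)) n m).PosSemidef := by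
  have e1 : QW k k b (fun _ => (1 : Matrix κ κ ℝ)) n m = ((2 : ℝ) ^ k * 2 ^ k)⁻¹ •
      ∑ x ∈ iv k n, (Matrix.of fun (j : Ix k) (l : κ) => b x (2 ^ k * m + val k j) l) *
        (Matrix.of fun (j : Ix k) (l : κ) => b x (2 ^ k * m + val k j) l)ᵀ := by
    ext j j'
    rw [Matrix.smul_apply, Matrix.sum_apply, smul_eq_mul]
    simp only [QW, Matrix.one_mulVec, Matrix.mul_apply, Matrix.transpose_apply, Matrix.of_apply,
      dotProduct]
  rw [e1]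
  refine Matrix.PosSemidef.smul ?_ (by positivity)
  refine Finset.sum_induction _ (fun X : Matrix (Ix k) (Ix k) ℝ => X.PosSemidef)
    (fun _ _ => Matrix.PosSemidef.add) Matrix.PosSemidef.zero fun x _ => ?_
  exact psd_mul_transpose _

theorem Py_psd {h : Type*} [Fintype h] (W : ℤ → h → ℝ) (a : ℕ) (n : ℤ) : (Py W a n).PosSemidef := by
  refine PosSemidef.of_dotProduct_mulVec_nonneg ?_ fun x => ?_
  · rw [IsHermitian, conjTranspose_eq_transpose_of_trivial]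
    exact H297.Ch.Py_symm W a n
  · have := H297.Ch.Py_psd W a n x
    simpa using this

variable (he : Function.Injective e) (hm : ∀ i, e i ∈ lbs L) {x y : ℝ} {k : ℕ} (hk : 1 ≤ k)
  (A : ℕ → ℤ → ℤ → ℝ) (b C : ℕ → ℤ → ℤ → κ → ℝ) (m : Pt)

include he hm hk

/-- hub `z`: the pair `(C, A)` -/
theorem node_z : x ^ 2 * y ^ 2 * (4 ^ (k + L) * M2 (hd (k + L)) ((x ^ 2)⁻¹ * (4 ^ (k + L))⁻¹)
      ((y ^ 2)⁻¹ * (4 ^ (k + L))⁻¹) (bl (k + L) (gC L e C (k + L)) m.1 m.2.2)ᵀ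
        (bl (k + L) (gA L A (k + L)) m.1 m.2.1)) =
      4 ^ L * (4 ^ k * (phs (x ^ 2) (QW k k (fun x z => C k z x) (fun _ => 1) m.2.2 m.1) *
        (hd k * phs (y ^ 2) (PA (fun y z => A k z y) k k m.2.1 m.1) * hd k)).trace) := by
  refine node_iso (VD_iso k L) (VD_hd hk L) (QW_psd ..) (H588.Xg_psd ..) ?_ ?_
  · have h := gram_zC k (C k) ((x ^ 2)⁻¹ * (4 ^ (k + L))⁻¹) m he hm
    unfold H747.gC
    rw [Nat.add_sub_cancel]
    exact h
  · have h := gram_zA (L := L) k (A k) ((y ^ 2)⁻¹ * (4 ^ (k + L))⁻¹) m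
    unfold H747.gA
    rw [Nat.add_sub_cancel]
    exact h

/-- hub `y`: the pair `(A, b)` -/
theorem node_y : x ^ 2 * y ^ 2 * (4 ^ (k + L) * M2 (hd (k + L)) ((x ^ 2)⁻¹ * (4 ^ (k + L))⁻¹)
      ((y ^ 2)⁻¹ * (4 ^ (k + L))⁻¹) (bl (k + L) (gA L A (k + L)) m.1 m.2.1)
        (bl (k + L) (gB L e b (k + L)) m.2.1 m.2.2)) =
      4 ^ L * (4 ^ k * (phs (x ^ 2) (PA (A k) k k m.1 m.2.1) *
        (hd k * phs (y ^ 2) (QW k k (b k) (fun _ => 1) m.2.2 m.2.1) * hd k)).trace) := by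
  refine node_iso (VD_iso k L) (VD_hd hk L) (H588.Xg_psd ..) (QW_psd ..) ?_ ?_
  · have h := gram_yA (L := L) k (A k) ((x ^ 2)⁻¹ * (4 ^ (k + L))⁻¹) m
    unfold H747.gA
    rw [Nat.add_sub_cancel]
    exact h
  · have h := gram_yB k (b k) ((y ^ 2)⁻¹ * (4 ^ (k + L))⁻¹) m he hm
    unfold H747.gB
    rw [Nat.add_sub_cancel]
    exact h

/-- hub `x`: the pair `(b, C)` -/
theorem node_x : x ^ 2 * y ^ 2 * (4 ^ (k + L) * M2 (hd (k + L)) ((x ^ 2)⁻¹ * (4 ^ (k + L))⁻¹)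
      ((y ^ 2)⁻¹ * (4 ^ (k + L))⁻¹) (bl (k + L) (gB L e b (k + L)) m.2.1 m.2.2)
        (bl (k + L) (gC L e C (k + L)) m.1 m.2.2)ᵀ) =
      4 ^ L * (4 ^ k * (phs (x ^ 2) (Py (sl k m.2.2 (b k)) k m.2.1) *
        (hdk κ k * phs (y ^ 2) (Py (sl k m.2.2 fun x z => C k z x) k m.1) *
          hdk κ k)).trace) := by
  refine node_iso (VL_iso he hm k) (VL_hd he hm hk) (Py_psd ..) (Py_psd ..) ?_ ?_
  · have h := gram_xB (L := L) (e := e) k (b k) ((x ^ 2)⁻¹ * (4 ^ (k + L))⁻¹) m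
    unfold H747.gB
    rw [Nat.add_sub_cancel]
    exact h
  · have h := gram_xC (L := L) (e := e) k (C k) ((y ^ 2)⁻¹ * (4 ^ (k + L))⁻¹) m
    unfold H747.gC
    rw [Nat.add_sub_cancel]
    exact h

end node

/-! ### The pair sums -/

section sums

theorem phs_tr_nonneg {ν : Type*} [Fintype ν] [DecidableEq ν] {s s' : ℝ} (hs : 0 ≤ s)
    (hs' : 0 ≤ s') {h X Y : Matrix ν ν ℝ} (hh : hᵀ = h) (hX : X.PosSemidef) (hY : Y.PosSemidef) :
    0 ≤ (phs s X * (h * phs s' Y * h)).trace := by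
  rw [phs_pair]
  exact mul_nonneg (mul_nonneg hs hs') (trace_mul_nonneg
    (phi_psd (hX.smul (inv_nonneg.2 hs))) (psd_conj_symm (phi_psd (hY.smul (inv_nonneg.2 hs'))) hh))

theorem RP_sL (N L : ℕ) (s : ℕ → Finset Pt) {x y : ℝ} {F H : NM} {g : ℕ → Pt → ℝ}
    (h : ∀ k, 1 ≤ k → ∀ m, x ^ 2 * y ^ 2 * (4 ^ (k + L) * M2 (hd (k + L))
      ((x ^ 2)⁻¹ * (4 ^ (k + L))⁻¹) ((y ^ 2)⁻¹ * (4 ^ (k + L))⁻¹) (F (k + L) m) (H (k + L) m)) =
      4 ^ L * (4 ^ k * g k m)) :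
    RP (N + L) (sL L s) x y F H = 4 ^ L * ∑ k ∈ Icc 1 N, 4 ^ k * ∑ m ∈ s k, g k m := by
  unfold H609.RP
  rw [sum_sL L N s fun k m => x ^ 2 * y ^ 2 * (4 ^ k * M2 (hd k)
    ((x ^ 2)⁻¹ * (4 ^ k)⁻¹) ((y ^ 2)⁻¹ * (4 ^ k)⁻¹) (F k m) (H k m))]
  rw [mul_sum]
  refine sum_congr rfl fun k hk => ?_
  rw [mem_Icc] at hk
  rw [mul_sum, mul_sum]
  exact sum_congr rfl fun m _ => h k hk.1 m

theorem le_GW_z {N k : ℕ} {R : Pt} {c : ℤ} {s : Finset Pt} (hs : s ⊆ bx3 N R k c)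
    {g : ℤ → ℤ → ℤ → ℝ} (hg : ∀ n n' m, 0 ≤ g n n' m) :
    4 ^ k * ∑ m ∈ s, g m.2.2 m.2.1 m.1 ≤ GW N R.2.2 R.1 R.2.1 k c g := by
  unfold H103.GW
  refine mul_le_mul_of_nonneg_left ?_ (by positivity)
  refine (sum_le_sum_of_subset_of_nonneg hs fun m _ _ => hg _ _ _).trans (le_of_eq ?_)
  rw [sum_bx3]
  refine sum_congr rfl fun m1 _ => ?_
  rw [sum_comm]
  refine sum_congr rfl fun m3 _ => ?_
  have h : ∀ m2 : ℤ, (m1 + m2 + m3 = c) ↔ (c - m1 - m3 = m2) := fun m2 => by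
    constructor <;> intro h <;> linarith
  simp only [h]
  rw [sum_ite_eq]

theorem le_GW_z' {N k : ℕ} {R : Pt} {c : ℤ} {s : Finset Pt} (hs : s ⊆ bx3 N R k c)
    {g : ℤ → ℤ → ℤ → ℝ} (hg : ∀ n n' m, 0 ≤ g n n' m) :
    4 ^ k * ∑ m ∈ s, g m.2.1 m.2.2 m.1 ≤ GW N R.2.1 R.1 R.2.2 k c g := by
  unfold H103.GW
  refine mul_le_mul_of_nonneg_left ?_ (by positivity)
  refine (sum_le_sum_of_subset_of_nonneg hs fun m _ _ => hg _ _ _).trans (le_of_eq ?_)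
  rw [H804.sum_bx3_12]

theorem le_GW_y {N k : ℕ} {R : Pt} {c : ℤ} {s : Finset Pt} (hs : s ⊆ bx3 N R k c)
    {g : ℤ → ℤ → ℤ → ℝ} (hg : ∀ n n' m, 0 ≤ g n n' m) :
    4 ^ k * ∑ m ∈ s, g m.1 m.2.2 m.2.1 ≤ GW N R.1 R.2.1 R.2.2 k c g := by
  unfold H103.GW
  refine mul_le_mul_of_nonneg_left ?_ (by positivity)
  refine (sum_le_sum_of_subset_of_nonneg hs fun m _ _ => hg _ _ _).trans (le_of_eq ?_)
  rw [sum_bx3_21]

theorem le_GW_x {N k : ℕ} {R : Pt} {c : ℤ} {s : Finset Pt} (hs : s ⊆ bx3 N R k c)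
    {g : ℤ → ℤ → ℤ → ℝ} (hg : ∀ n n' m, 0 ≤ g n n' m) :
    4 ^ k * ∑ m ∈ s, g m.2.1 m.1 m.2.2 ≤ GW N R.2.1 R.2.2 R.1 k c g := by
  unfold H103.GW
  refine mul_le_mul_of_nonneg_left ?_ (by positivity)
  refine (sum_le_sum_of_subset_of_nonneg hs fun m _ _ => hg _ _ _).trans (le_of_eq ?_)
  rw [sum_bx3_32]

theorem hdk_symm (κ : Type*) [DecidableEq κ] (k : ℕ) : (hdk κ k)ᵀ = hdk κ k := by
  ext p q
  show (if q = p then sgn k q.1 else 0) = if p = q then sgn k p.1 else 0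
  by_cases h : q = p
  · rw [if_pos h, if_pos h.symm, h]
  · rw [if_neg h, if_neg fun h' => h h'.symm]

variable (he : Function.Injective e) (hm : ∀ i, e i ∈ lbs L) {x y : ℝ} (N : ℕ)
  (s : ℕ → Finset Pt) (A : ℕ → ℤ → ℤ → ℝ) (b C : ℕ → ℤ → ℤ → κ → ℝ)

include he hm

/-- **Hub `z`, the pair `(C, A)`, exact.** -/
theorem RP_z_eq : RP (N + L) (sL L s) x y (fun k m => (bl k (gC L e C k) m.1 m.2.2)ᵀ)
      (fun k m => bl k (gA L A k) m.1 m.2.1) =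
    4 ^ L * ∑ k ∈ Icc 1 N, 4 ^ k * ∑ m ∈ s k,
      (phs (x ^ 2) (QW k k (fun x z => C k z x) (fun _ => 1) m.2.2 m.1) *
        (hd k * phs (y ^ 2) (PA (fun y z => A k z y) k k m.2.1 m.1) * hd k)).trace :=
  RP_sL N L s fun _ hk m => node_z he hm hk A C m

/-- **Hub `y`, the pair `(A, b)`, exact.** -/
theorem RP_y_eq : RP (N + L) (sL L s) x y (fun k m => bl k (gA L A k) m.1 m.2.1)
      (fun k m => bl k (gB L e b k) m.2.1 m.2.2) =
    4 ^ L * ∑ k ∈ Icc 1 N, 4 ^ k * ∑ m ∈ s k,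
      (phs (x ^ 2) (PA (A k) k k m.1 m.2.1) *
        (hd k * phs (y ^ 2) (QW k k (b k) (fun _ => 1) m.2.2 m.2.1) * hd k)).trace :=
  RP_sL N L s fun _ hk m => node_y he hm hk A b m

/-- **Hub `x`, the pair `(b, C)`, exact.** -/
theorem RP_x_eq : RP (N + L) (sL L s) x y (fun k m => bl k (gB L e b k) m.2.1 m.2.2)
      (fun k m => (bl k (gC L e C k) m.1 m.2.2)ᵀ) =
    4 ^ L * ∑ k ∈ Icc 1 N, 4 ^ k * ∑ m ∈ s k,
      (phs (x ^ 2) (Py (sl k m.2.2 (b k)) k m.2.1) *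
        (hdk κ k * phs (y ^ 2) (Py (sl k m.2.2 fun x z => C k z x) k m.1) *
          hdk κ k)).trace :=
  RP_sL N L s fun _ hk m => node_x he hm hk b C m

omit he hm in
/-- hub `z`, outer cells: `n` of `C` (`x1`), `n'` of `A` (`x2`) -/
def gz (x y : ℝ) (A : ℕ → ℤ → ℤ → ℝ) (C : ℕ → ℤ → ℤ → κ → ℝ) (k : ℕ) (n n' m : ℤ) : ℝ :=
  (phs (x ^ 2) (QW k k (fun x z => C k z x) (fun _ => 1) n m) *
    (hd k * phs (y ^ 2) (PA (fun y z => A k z y) k k n' m) * hd k)).trace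

omit he hm in
/-- hub `z`, outer cells: `n` of `A` (`x2`), `n'` of `C` (`x1`) -/
def gz' (x y : ℝ) (A : ℕ → ℤ → ℤ → ℝ) (C : ℕ → ℤ → ℤ → κ → ℝ) (k : ℕ) (n n' m : ℤ) : ℝ :=
  (phs (y ^ 2) (PA (fun y z => A k z y) k k n m) *
    (hd k * phs (x ^ 2) (QW k k (fun x z => C k z x) (fun _ => 1) n' m) * hd k)).trace

omit he hm in
/-- hub `y`, outer cells: `n` of `A` (`x3`), `n'` of `b` (`x1`) -/
def gy (x y : ℝ) (A : ℕ → ℤ → ℤ → ℝ) (b : ℕ → ℤ → ℤ → κ → ℝ) (k : ℕ) (n n' m : ℤ) : ℝ :=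
  (phs (x ^ 2) (PA (A k) k k n m) *
    (hd k * phs (y ^ 2) (QW k k (b k) (fun _ => 1) n' m) * hd k)).trace

omit he hm in
/-- hub `x`, outer cells: `n` of `b` (`x2`), `n'` of `C` (`x3`) -/
def gx (x y : ℝ) (b C : ℕ → ℤ → ℤ → κ → ℝ) (k : ℕ) (n n' m : ℤ) : ℝ :=
  (phs (x ^ 2) (Py (sl k m (b k)) k n) *
    (hdk κ k * phs (y ^ 2) (Py (sl k m fun x z => C k z x) k n') * hdk κ k)).trace

omit [Fintype κ] [DecidableEq κ] he hm in
theorem tr_flip {ν : Type*} [Fintype ν] (h X Y : Matrix ν ν ℝ) :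
    (X * (h * Y * h)).trace = (Y * (h * X * h)).trace := by
  calc (X * (h * Y * h)).trace = ((X * h) * (Y * h)).trace := by simp only [Matrix.mul_assoc]
    _ = ((Y * h) * (X * h)).trace := Matrix.trace_mul_comm _ _
    _ = _ := by simp only [Matrix.mul_assoc]

omit he hm in
theorem gz_flip (x y : ℝ) (A : ℕ → ℤ → ℤ → ℝ) (C : ℕ → ℤ → ℤ → κ → ℝ) (k : ℕ) (n n' m : ℤ) :
    gz' x y A C k n n' m = gz x y A C k n' n m := tr_flip _ _ _

omit he hm in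
theorem gz_nonneg (x y : ℝ) (A : ℕ → ℤ → ℤ → ℝ) (C : ℕ → ℤ → ℤ → κ → ℝ) (k : ℕ) (n n' m : ℤ) :
    0 ≤ gz x y A C k n n' m :=
  phs_tr_nonneg (sq_nonneg _) (sq_nonneg _) (H804.hd_symm k) (QW_psd ..) (H588.Xg_psd ..)

omit he hm in
theorem gz'_nonneg (x y : ℝ) (A : ℕ → ℤ → ℤ → ℝ) (C : ℕ → ℤ → ℤ → κ → ℝ) (k : ℕ) (n n' m : ℤ) :
    0 ≤ gz' x y A C k n n' m := by
  rw [gz_flip]
  exact gz_nonneg ..

omit he hm in
theorem gy_nonneg (x y : ℝ) (A : ℕ → ℤ → ℤ → ℝ) (b : ℕ → ℤ → ℤ → κ → ℝ) (k : ℕ) (n n' m : ℤ) :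
    0 ≤ gy x y A b k n n' m :=
  phs_tr_nonneg (sq_nonneg _) (sq_nonneg _) (H804.hd_symm k) (H588.Xg_psd ..) (QW_psd ..)

omit he hm in
theorem gx_nonneg (x y : ℝ) (b C : ℕ → ℤ → ℤ → κ → ℝ) (k : ℕ) (n n' m : ℤ) :
    0 ≤ gx x y b C k n n' m :=
  phs_tr_nonneg (sq_nonneg _) (sq_nonneg _) (hdk_symm κ k) (Py_psd ..) (Py_psd ..)

variable {R : Pt} {c : ℕ → ℤ} (hs : ∀ k ∈ Icc 1 N, s k ⊆ bx3 N R k (c k))

include hs

/-- **Hub `z`, the pair `(C, A)`, as a plane sum**, `C` first. -/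
theorem RP_z : RP (N + L) (sL L s) x y (fun k m => (bl k (gC L e C k) m.1 m.2.2)ᵀ)
      (fun k m => bl k (gA L A k) m.1 m.2.1) ≤
    4 ^ L * ∑ k ∈ Icc 1 N, GW N R.2.2 R.1 R.2.1 k (c k) (gz x y A C k) := by
  rw [RP_z_eq he hm]
  refine mul_le_mul_of_nonneg_left (sum_le_sum fun k hk => ?_) (by positivity)
  exact le_GW_z (g := gz x y A C k) (hs k hk) (gz_nonneg x y A C k)

/-- **Hub `z`, the pair `(C, A)`, as a plane sum**, `A` first. -/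
theorem RP_z' : RP (N + L) (sL L s) x y (fun k m => (bl k (gC L e C k) m.1 m.2.2)ᵀ)
      (fun k m => bl k (gA L A k) m.1 m.2.1) ≤
    4 ^ L * ∑ k ∈ Icc 1 N, GW N R.2.1 R.1 R.2.2 k (c k) (gz' x y A C k) := by
  rw [RP_z_eq he hm]
  refine mul_le_mul_of_nonneg_left (sum_le_sum fun k hk => ?_) (by positivity)
  have h := le_GW_z' (g := gz' x y A C k) (hs k hk) (gz'_nonneg x y A C k)
  refine le_trans (le_of_eq ?_) h
  congr 1
  exact sum_congr rfl fun m _ => (gz_flip x y A C k m.2.1 m.2.2 m.1).symm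

/-- **Hub `y`, the pair `(A, b)`, as a plane sum.** -/
theorem RP_y : RP (N + L) (sL L s) x y (fun k m => bl k (gA L A k) m.1 m.2.1)
      (fun k m => bl k (gB L e b k) m.2.1 m.2.2) ≤
    4 ^ L * ∑ k ∈ Icc 1 N, GW N R.1 R.2.1 R.2.2 k (c k) (gy x y A b k) := by
  rw [RP_y_eq he hm]
  refine mul_le_mul_of_nonneg_left (sum_le_sum fun k hk => ?_) (by positivity)
  exact le_GW_y (g := gy x y A b k) (hs k hk) (gy_nonneg x y A b k)

/-- **Hub `x`, the pair `(b, C)`, as a plane sum.** -/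
theorem RP_x : RP (N + L) (sL L s) x y (fun k m => bl k (gB L e b k) m.2.1 m.2.2)
      (fun k m => (bl k (gC L e C k) m.1 m.2.2)ᵀ) ≤
    4 ^ L * ∑ k ∈ Icc 1 N, GW N R.2.1 R.2.2 R.1 k (c k) (gx x y b C k) := by
  rw [RP_x_eq he hm]
  refine mul_le_mul_of_nonneg_left (sum_le_sum fun k hk => ?_) (by positivity)
  exact le_GW_x (g := gx x y b C k) (hs k hk) (gx_nonneg x y b C k)

end sums

/-! ### Scales `k + 1`, signs `rad`, raw partner -/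

theorem sum_Icc_Ico (N : ℕ) (f : ℕ → ℝ) : ∑ k ∈ Icc 1 N, f k = ∑ k ∈ Ico 0 N, f (k + 1) := by
  rw [sum_Ico_add' f 0 N 1]
  rfl

/-- saturation decreases a positive matrix -/
theorem phs_le_self {ν : Type*} [Fintype ν] [DecidableEq ν] {s : ℝ} (hs : 0 < s)
    {X : Matrix ν ν ℝ} (hX : X.PosSemidef) : (X - phs s X).PosSemidef := by
  have h := (H804.phi_le_self (hX.smul (inv_pos.2 hs).le)).smul hs.le
  rw [smul_sub, smul_smul, mul_inv_cancel₀ hs.ne', one_smul] at h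
  exact h

/-- the raw partner -/
theorem tr_raw {ν : Type*} [Fintype ν] [DecidableEq ν] {s : ℝ} (hs : 0 < s)
    {h X Z : Matrix ν ν ℝ} (hh : hᵀ = h) (hX : X.PosSemidef) (hZ : Z.PosSemidef) :
    (phs s X * (h * Z * h)).trace ≤ (X * (h * Z * h)).trace := by
  have h1 := trace_mul_nonneg (phs_le_self hs hX) (psd_conj_symm hZ hh)
  rw [Matrix.sub_mul, trace_sub] at h1
  linarith

end

end Vale.Agent.P141.H719
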