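import Vale.Agent.P141.H338.Lab4
import Vale.Agent.P141.H585.PairCh

/-!
# Low digits of the index type, isometries and the saturated function

`eL k L : Ix (k + L) ≃ Ix k × Ix L` (high digits, low digits); for a matrix `V` with `Vᵀ V = 1`
the saturated function of `V X Vᵀ` is `V (phi X) Vᵀ`; `VD` forgets the low digits (mean), `VL`
reads labels in the low digits; both carry the sign matrix of the scale `k` to that of `k + L`.
-/

namespace Vale.Agent.P141.H719

open Finset Matrix Vale.Agent.P075 Vale.Agent.P141.PL Vale.Agent.P141.PL.H588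
open Vale.Agent.P141.H958 (lbs)

noncomputable section

/-! ### The index type -/

theorem card_Ix (k : ℕ) : Fintype.card (Ix k) = 2 ^ k := by
  have h := sum_val k (fun _ => (1 : ℝ))
  simp only [sum_const, card_univ, nsmul_eq_mul, mul_one, card_range] at h
  exact_mod_cast h

/-- `val` as an equivalence -/
def eF (k : ℕ) : Ix k ≃ Fin (2 ^ k) :=
  Equiv.ofBijective (fun i => ⟨val k i, val_lt k i⟩) <| by
    refine (Fintype.bijective_iff_injective_and_card _).2 ⟨fun i j h => ?_, ?_⟩
    · exact H804.val_inj k (congrArg Fin.val h)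
    · rw [card_Ix, Fintype.card_fin]

theorem eF_val (k : ℕ) (i : Ix k) : (eF k i : ℕ) = val k i := rfl

/-- high digits and low digits -/
def eL (k L : ℕ) : Ix (k + L) ≃ Ix k × Ix L :=
  (eF (k + L)).trans ((finCongr (pow_add 2 k L)).trans (finProdFinEquiv.symm.trans
    (Equiv.prodCongr (eF k).symm (eF L).symm)))

theorem val_eL_symm (k L : ℕ) (p : Ix k × Ix L) :
    val (k + L) ((eL k L).symm p) = 2 ^ L * val k p.1 + val L p.2 := by
  have h : ((eF (k + L)) ((eL k L).symm p) : ℕ) = 2 ^ L * val k p.1 + val L p.2 := by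
    unfold eL
    simp only [Equiv.symm_trans_apply, Equiv.apply_symm_apply, Equiv.prodCongr_symm,
      Equiv.prodCongr_apply, Equiv.symm_symm]
    simp only [finCongr_symm, finCongr_apply, Fin.val_cast, finProdFinEquiv_apply_val,
      Prod.map_fst, Prod.map_snd, eF_val]
    ring
  rw [eF_val] at h
  exact h

theorem val_eL (k L : ℕ) (i : Ix (k + L)) :
    val (k + L) i = 2 ^ L * val k (eL k L i).1 + val L (eL k L i).2 := by
  have h := val_eL_symm k L (eL k L i)
  rwa [Equiv.symm_apply_apply] at h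

/-! ### Isometries and the saturated function -/

section iso

variable {m n : Type*} [Fintype m] [DecidableEq m] [Fintype n] [DecidableEq n]

omit [DecidableEq m] [DecidableEq n] in
theorem psd_iso {X : Matrix n n ℝ} (hX : X.PosSemidef) (V : Matrix m n ℝ) :
    (V * X * Vᵀ).PosSemidef := psd_conj hX V

theorem phi_iso {V : Matrix m n ℝ} (hV : Vᵀ * V = 1) {X : Matrix n n ℝ} (hX : X.PosSemidef) :
    phi (V * X * Vᵀ) = V * phi X * Vᵀ := by
  have hY := psd_iso hX V
  have h1 : (1 + V * X * Vᵀ) * (1 - V * phi X * Vᵀ) = 1 := by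
    have e1 : V * X * Vᵀ * (V * phi X * Vᵀ) = V * (X * phi X) * Vᵀ := by
      calc V * X * Vᵀ * (V * phi X * Vᵀ) = V * X * (Vᵀ * V) * phi X * Vᵀ := by
            simp only [Matrix.mul_assoc]
        _ = _ := by rw [hV, Matrix.mul_one]; simp only [Matrix.mul_assoc]
    have e2 : X * phi X = X - phi X := by
      rw [phi, Matrix.mul_sub, Matrix.mul_one, mul_res hX]
    rw [Matrix.add_mul, Matrix.one_mul, Matrix.mul_sub, Matrix.mul_one, e1, e2, Matrix.mul_sub,
      Matrix.sub_mul]
    abel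
  have h2 : res (V * X * Vᵀ) = 1 - V * phi X * Vᵀ := by
    rw [res]
    exact Matrix.inv_eq_right_inv h1
  rw [phi, h2, sub_sub_cancel]

/-- **The trace of two saturated families under an isometry.** -/
theorem trace_iso {V : Matrix m n ℝ} (hV : Vᵀ * V = 1) {H : Matrix m m ℝ} {h : Matrix n n ℝ}
    (hH : Vᵀ * H * V = h) {X Y : Matrix n n ℝ} (hX : X.PosSemidef) (hY : Y.PosSemidef) :
    (phi (V * X * Vᵀ) * (H * phi (V * Y * Vᵀ) * H)).trace =
      (phi X * (h * phi Y * h)).trace := by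
  rw [phi_iso hV hX, phi_iso hV hY, ← hH]
  have e1 : V * phi X * Vᵀ * (H * (V * phi Y * Vᵀ) * H) =
      V * (phi X * (Vᵀ * H * V) * phi Y * Vᵀ * H) := by
    simp only [Matrix.mul_assoc]
  rw [e1, Matrix.trace_mul_comm]
  congr 1
  simp only [Matrix.mul_assoc]

end iso

/-! ### The two isometries -/

/-- forgets the low digits -/
def VD (k L : ℕ) : Matrix (Ix (k + L)) (Ix k) ℝ := fun i j =>
  if (eL k L i).1 = j then √((2 : ℝ) ^ L)⁻¹ else 0

/-- the low digits as labels -/
def VL {κ : Type*} (e : κ → ℤ) (k L : ℕ) : Matrix (Ix (k + L)) (Ix k × κ) ℝ := fun i j =>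
  if (eL k L i).1 = j.1 ∧ e j.2 = (val L (eL k L i).2 : ℤ) then 1 else 0

theorem sum_Ix_add (k L : ℕ) (f : Ix (k + L) → ℝ) :
    ∑ i, f i = ∑ j : Ix k, ∑ d : Ix L, f ((eL k L).symm (j, d)) := by
  rw [← (eL k L).symm.sum_comp, Fintype.sum_prod_type]

theorem VD_iso (k L : ℕ) : (VD k L)ᵀ * VD k L = 1 := by
  ext j j'
  rw [Matrix.mul_apply, sum_Ix_add]
  simp only [Matrix.transpose_apply, VD, Equiv.apply_symm_apply]
  rw [Matrix.one_apply]
  have h2 : √((2 : ℝ) ^ L)⁻¹ * √((2 : ℝ) ^ L)⁻¹ = ((2 : ℝ) ^ L)⁻¹ :=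
    Real.mul_self_sqrt (by positivity)
  have e1 : ∀ i : Ix k, ∑ _d : Ix L, (if i = j then √((2 : ℝ) ^ L)⁻¹ else 0) *
      (if i = j' then √((2 : ℝ) ^ L)⁻¹ else 0) = if i = j then (if i = j' then 1 else 0) else 0 := by
    intro i
    rw [sum_const, card_univ, card_Ix, nsmul_eq_mul]
    split_ifs
    · rw [h2]
      push_cast
      field_simp
    · ring
    · ring
    · ring
  rw [sum_congr rfl fun i _ => e1 i, sum_ite_eq' univ j]
  simp

variable {κ : Type*} [DecidableEq κ]

theorem exists_low {L : ℕ} {l : ℤ} (hl : l ∈ lbs L) : ∃ d : Ix L, (val L d : ℤ) = l := by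
  unfold H958.lbs at hl
  rw [mem_Ico] at hl
  obtain ⟨a, rfl⟩ := Int.eq_ofNat_of_zero_le hl.1
  have ha : a < 2 ^ L := by exact_mod_cast hl.2
  refine ⟨(eF L).symm ⟨a, ha⟩, ?_⟩
  have h := eF_val L ((eF L).symm ⟨a, ha⟩)
  rw [Equiv.apply_symm_apply] at h
  exact_mod_cast h.symm

theorem VL_iso {e : κ → ℤ} {L : ℕ} (he : Function.Injective e) (hm : ∀ i, e i ∈ lbs L) (k : ℕ) :
    (VL e k L)ᵀ * VL e k L = 1 := by
  ext ⟨j, l⟩ ⟨j', l'⟩
  rw [Matrix.mul_apply, sum_Ix_add]
  simp only [Matrix.transpose_apply, VL, Equiv.apply_symm_apply]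
  rw [Matrix.one_apply]
  obtain ⟨d, hd⟩ := exists_low (hm l)
  have e1 : ∀ i : Ix k, ∑ d' : Ix L,
      (if i = j ∧ e l = (val L d' : ℤ) then (1 : ℝ) else 0) *
      (if i = j' ∧ e l' = (val L d' : ℤ) then 1 else 0) =
      if i = j then (if i = j' ∧ l = l' then 1 else 0) else 0 := by
    intro i
    rw [sum_eq_single d]
    · by_cases h1 : i = j
      · by_cases h2 : i = j'
        · by_cases h3 : l = l'
          · subst h3
            simp [h1, hd, h1.symm.trans h2]
          · have h4 : e l' ≠ (val L d : ℤ) := by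
              rw [hd]
              exact fun h => h3 (he h.symm)
            simp [h1, h3, h4]
        · simp [h2]
      · simp [h1]
    · intro d' _ hne
      have h4 : e l ≠ (val L d' : ℤ) := by
        rw [← hd]
        intro h
        exact hne (H804.val_inj L (by exact_mod_cast h.symm))
      simp [h4]
    · intro h
      exact absurd (mem_univ d) h
  rw [sum_congr rfl fun i _ => e1 i, sum_ite_eq' univ j]
  simp [Prod.ext_iff]

/-! ### The sign matrix -/

/-- the sign of the half -/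
def sgn (k : ℕ) (i : Ix k) : ℝ := if val k i < 2 ^ (k - 1) then 1 else -1

theorem hd_apply {k : ℕ} (hk : 1 ≤ k) (i j : Ix k) : hd k i j = if i = j then sgn k i else 0 := by
  obtain ⟨n, rfl⟩ : ∃ n, k = n + 1 := ⟨k - 1, by omega⟩
  have h : hd (n + 1) = rad (Ix n) := rfl
  rw [h]
  have e1 : ∀ a : Ix n, sgn (n + 1) (Sum.inl a : Ix n ⊕ Ix n) = 1 := by
    intro a
    unfold sgn
    have h2 : val (n + 1) (Sum.inl a : Ix n ⊕ Ix n) = val n a := rfl
    rw [h2, Nat.add_sub_cancel, if_pos (val_lt n a)]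
  have e2 : ∀ a : Ix n, sgn (n + 1) (Sum.inr a : Ix n ⊕ Ix n) = -1 := by
    intro a
    unfold sgn
    have h2 : val (n + 1) (Sum.inr a : Ix n ⊕ Ix n) = 2 ^ n + val n a := rfl
    rw [h2, Nat.add_sub_cancel, if_neg (by omega)]
  have key : ∀ i j : Ix n ⊕ Ix n, rad (Ix n) i j =
      if i = j then sgn (n + 1) (i : Ix n ⊕ Ix n) else 0 := by
    intro i j
    rcases i with i | i <;> rcases j with j | j
    · rw [e1]
      show (1 : Matrix (Ix n) (Ix n) ℝ) i j = _
      rw [Matrix.one_apply]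
      by_cases h : i = j
      · rw [if_pos h, if_pos (by rw [h])]
      · rw [if_neg h, if_neg (fun h' => h (Sum.inl.inj h'))]
    · rw [if_neg (by simp)]
      rfl
    · rw [if_neg (by simp)]
      rfl
    · rw [e2]
      show (-1 : Matrix (Ix n) (Ix n) ℝ) i j = _
      rw [Matrix.neg_apply, Matrix.one_apply]
      by_cases h : i = j
      · rw [if_pos h, if_pos (by rw [h])]
      · rw [if_neg h, if_neg (fun h' => h (Sum.inr.inj h')), neg_zero]
  have h3 := key i j
  rw [h3]
  congr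

theorem sgn_eL {k L : ℕ} (hk : 1 ≤ k) (p : Ix k × Ix L) :
    sgn (k + L) ((eL k L).symm p) = sgn k p.1 := by
  unfold sgn
  rw [val_eL_symm]
  have h1 : (2 : ℕ) ^ (k + L - 1) = 2 ^ L * 2 ^ (k - 1) := by
    rw [← pow_add]
    congr 1
    omega
  have h2 : val L p.2 < 2 ^ L := val_lt L p.2
  have h3 : (2 ^ L * val k p.1 + val L p.2 < 2 ^ L * 2 ^ (k - 1)) ↔ val k p.1 < 2 ^ (k - 1) := by
    have hp : 0 < 2 ^ L := by positivity
    constructor
    · intro h
      by_contra h4
      rw [not_lt] at h4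
      have := Nat.mul_le_mul_left (2 ^ L) h4
      omega
    · intro h
      have := Nat.mul_le_mul_left (2 ^ L) (Nat.succ_le_of_lt h)
      rw [Nat.succ_eq_add_one, Nat.mul_add, Nat.mul_one] at this
      omega
  rw [h1]
  simp only [h3]

/-- the sign matrix times a matrix -/
theorem hd_mul {k : ℕ} (hk : 1 ≤ k) {n : Type*} (X : Matrix (Ix k) n ℝ) (i : Ix k) (j : n) :
    (hd k * X) i j = sgn k i * X i j := by
  rw [Matrix.mul_apply]
  rw [sum_congr rfl fun a _ => by rw [hd_apply hk i a, ite_mul, zero_mul], sum_ite_eq univ i]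
  simp

theorem VD_hd {k : ℕ} (hk : 1 ≤ k) (L : ℕ) : (VD k L)ᵀ * hd (k + L) * VD k L = hd k := by
  rw [Matrix.mul_assoc]
  ext j j'
  rw [Matrix.mul_apply, sum_Ix_add]
  have e1 : ∀ (i : Ix k) (d : Ix L), (VD k L)ᵀ j ((eL k L).symm (i, d)) *
      (hd (k + L) * VD k L) ((eL k L).symm (i, d)) j' =
      sgn k i * ((VD k L)ᵀ j ((eL k L).symm (i, d)) * VD k L ((eL k L).symm (i, d)) j') := by
    intro i d
    rw [hd_mul (by omega), sgn_eL hk]
    ring
  simp only [e1, ← mul_sum]
  have h0 : ∀ i : Ix k, ∑ d : Ix L, (VD k L)ᵀ j ((eL k L).symm (i, d)) *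
      VD k L ((eL k L).symm (i, d)) j' = if i = j then (if i = j' then 1 else 0) else 0 := by
    intro i
    simp only [Matrix.transpose_apply, VD, Equiv.apply_symm_apply]
    rw [sum_const, card_univ, card_Ix, nsmul_eq_mul]
    have h2 : √((2 : ℝ) ^ L)⁻¹ * √((2 : ℝ) ^ L)⁻¹ = ((2 : ℝ) ^ L)⁻¹ :=
      Real.mul_self_sqrt (by positivity)
    split_ifs
    · rw [h2]
      push_cast
      field_simp
    · ring
    · ring
    · ring
  rw [sum_congr rfl fun i _ => by rw [h0 i, mul_ite, mul_zero], sum_ite_eq' univ j, hd_apply hk]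
  simp

/-- the sign matrix of the first factor -/
def hdk (κ : Type*) [DecidableEq κ] (k : ℕ) : Matrix (Ix k × κ) (Ix k × κ) ℝ := fun p q =>
  if p = q then sgn k p.1 else 0

theorem VL_hd {e : κ → ℤ} {L : ℕ} (he : Function.Injective e) (hm : ∀ i, e i ∈ lbs L) {k : ℕ}
    (hk : 1 ≤ k) : (VL e k L)ᵀ * hd (k + L) * VL e k L = hdk κ k := by
  rw [Matrix.mul_assoc]
  ext ⟨j, l⟩ ⟨j', l'⟩
  rw [Matrix.mul_apply, sum_Ix_add]
  have e1 : ∀ (i : Ix k) (d : Ix L), (VL e k L)ᵀ (j, l) ((eL k L).symm (i, d)) *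
      (hd (k + L) * VL e k L) ((eL k L).symm (i, d)) (j', l') =
      sgn k i * ((VL e k L)ᵀ (j, l) ((eL k L).symm (i, d)) *
        VL e k L ((eL k L).symm (i, d)) (j', l')) := by
    intro i d
    rw [hd_mul (by omega), sgn_eL hk]
    ring
  simp only [e1, ← mul_sum]
  obtain ⟨d, hd⟩ := exists_low (hm l)
  have h0 : ∀ i : Ix k, ∑ d' : Ix L, (VL e k L)ᵀ (j, l) ((eL k L).symm (i, d')) *
      VL e k L ((eL k L).symm (i, d')) (j', l') =
      if i = j then (if i = j' ∧ l = l' then 1 else 0) else 0 := by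
    intro i
    simp only [Matrix.transpose_apply, VL, Equiv.apply_symm_apply]
    rw [sum_eq_single d]
    · by_cases h1 : i = j
      · by_cases h2 : i = j'
        · by_cases h3 : l = l'
          · subst h3
            simp [h1, hd, h1.symm.trans h2]
          · have h4 : e l' ≠ (val L d : ℤ) := by
              rw [hd]
              exact fun h => h3 (he h.symm)
            simp [h1, h3, h4]
        · simp [h2]
      · simp [h1]
    · intro d' _ hne
      have h4 : e l ≠ (val L d' : ℤ) := by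
        rw [← hd]
        intro h
        exact hne (H804.val_inj L (by exact_mod_cast h.symm))
      simp [h4]
    · intro h
      exact absurd (mem_univ d) h
  rw [sum_congr rfl fun i _ => by rw [h0 i, mul_ite, mul_zero], sum_ite_eq' univ j]
  unfold hdk
  simp [Prod.ext_iff]

end

end Vale.Agent.P141.H719
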